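import Mathlib.FieldTheory.Finite.Basic

/-!
# P014X, block TH: the function which is fixed by all the norms (abstract part, helper19)
-/

set_option autoImplicit false
set_option linter.all false

open Finset Function
open scoped Classical

noncomputable section

namespace Vale.Agent.P014X.Tf

variable {G F : Type} [AddCommGroup G] [Field F] {x f : G → F} {α φ ψ : G →+ G} {K K' V E : Finset G}
  {b b' k : F} {c : ℕ}

/-- `K` is the kernel of `φ` -/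
def Kr (φ : G →+ G) (K : Finset G) : Prop := ∀ T, T ∈ K ↔ φ T = 0

/-- the norm of `f` along `φ` is `b f` -/
def Nm (f : G → F) (φ : G →+ G) (K : Finset G) (b : F) : Prop :=
  ∀ Q, φ Q ≠ 0 → ∏ T ∈ K, f (Q + T) = b * f (φ Q)

/-- `φ` is an isogeny with kernel `K` -/
structure Isg (x : G → F) (φ : G →+ G) (K : Finset G) : Prop where
  kr : Kr φ K
  sj : Surjective φ
  nm : ∀ P, φ P ≠ 0 → ∃ C ≠ 0, ∀ Q, φ Q ≠ 0 →
    ∏ T ∈ K, (x (Q + T) - x P) = C * (x (φ Q) - x (φ P))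

theorem Kr.comp (k : Kr φ K) (k' : Kr ψ K') : ∃ V, Kr (φ.comp ψ) V := by
  have : (ψ ⁻¹' K).Finite := K.finite_toSet.preimage' fun T _ => by
    rcases (ψ ⁻¹' {T}).eq_empty_or_nonempty with e | ⟨s, e⟩
    · rw [e]; exact Set.finite_empty
    · exact (K'.finite_toSet.image (s + ·)).subset fun v h => ⟨v - s, (k' _).2 (by
        rw [map_sub, show ψ v = T from h, show ψ s = T from e, sub_self]), add_sub_cancel s v⟩
  exact ⟨this.toFinset, fun T => this.mem_toFinset.trans (k _)⟩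

theorem Nm.comp (h : Nm f φ K b) (h' : Nm f ψ K' b') (k : Kr φ K) (k' : Kr ψ K')
    (s : Surjective ψ) (v : Kr (φ.comp ψ) V) : Nm f (φ.comp ψ) V (b' ^ K.card * b) := fun Q hQ => by
  rw [← prod_fiberwise_of_maps_to (g := ψ) (t := K) fun T h => (k _).2 ((v T).1 h), mul_assoc,
    show f (φ.comp ψ Q) = f (φ (ψ Q)) from rfl, ← h _ hQ, ← prod_const, ← prod_mul_distrib]
  refine prod_congr rfl fun T hT => ?_
  obtain ⟨u, rfl⟩ := s T
  rw [← map_add, ← h' _ fun e => hQ (by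
    rw [map_add, add_eq_zero_iff_eq_neg] at e
    rw [AddMonoidHom.comp_apply, e, map_neg, (k _).1 hT, neg_zero])]
  refine prod_nbij' (· - u) (u + ·) (fun a h => (k' _).2 ?_) (fun a h => mem_filter.2 ?_)
    (fun a _ => add_sub_cancel u a) (fun a _ => add_sub_cancel_left u a) fun a _ => by
      congr 1; abel
  · rw [map_sub, (mem_filter.1 h).2, sub_self]
  · have e : ψ (u + a) = ψ u := by rw [map_add, (k' a).1 h, add_zero]
    exact ⟨(v _).2 (by rw [AddMonoidHom.comp_apply, e, (k _).1 hT]), e⟩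

theorem Nm.uniq (h : Nm f φ K b) (h' : Nm f φ K b') (s : Surjective φ)
    (r : ∃ R, R ≠ 0 ∧ f R ≠ 0) : b = b' := by
  obtain ⟨R, r0, r⟩ := r
  obtain ⟨Q, rfl⟩ := s R
  exact mul_right_cancel₀ r ((h Q r0).symm.trans (h' Q r0))

theorem Nm.rel (h : Nm f φ K b) (h' : Nm f ψ K' b') (k : Kr φ K) (k' : Kr ψ K')
    (s : Surjective φ) (s' : Surjective ψ) (e : φ.comp ψ = ψ.comp φ) (r : ∃ R, R ≠ 0 ∧ f R ≠ 0) :
    b' ^ K.card * b = b ^ K'.card * b' := by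
  obtain ⟨V, v⟩ := k.comp k'
  exact (h.comp h' k k' s' v).uniq (e ▸ h'.comp h k' k s (e ▸ v)) (s.comp s') r

/-- multiplication by `n` -/
def mu (G : Type) [AddCommGroup G] (n : ℕ) : G →+ G := nsmulAddMonoidHom n

theorem mu_comp (φ : G →+ G) (n : ℕ) : φ.comp (mu G n) = (mu G n).comp φ :=
  AddMonoidHom.ext fun T => map_nsmul φ n T

theorem eq38 (n : b ≠ 0) (h₃ : b ^ 3 = k ^ 3) (h₈ : b ^ 8 = k ^ 8) : b = k :=
  mul_left_cancel₀ (pow_ne_zero 8 n) (by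
    linear_combination -k * h₈ + (k ^ 6 + k ^ 3 * b ^ 3 + b ^ 6) * h₃)

/-- the division polynomial -/
def dv (x : G → F) (E : Finset G) (Q : G) : F := ∏ T ∈ E.erase 0, (x Q - x T)

theorem perm {G' : Type} [AddCommGroup G'] {β : G' →+ G'} {E' : Finset G'} (e : Kr α E)
    (e' : Kr β E') (γ : G →+ G') (i : ∀ T, α T = 0 → γ T = 0 → T = 0)
    (m : ∀ T, α T = 0 → β (γ T) = 0) (c : E'.card ≤ E.card) :
    Set.InjOn γ E ∧ E.image γ = E' ∧ (E.erase 0).image γ = E'.erase 0 := by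
  have j : Set.InjOn γ E := fun T h U h' q => sub_eq_zero.1 (i _
    (by rw [map_sub, (e T).1 h, (e U).1 h', sub_self]) (by rw [map_sub, q, sub_self]))
  have q : E.image γ = E' := eq_of_subset_of_card_le (image_subset_iff.2 fun T h => (e' _).2
    (m T ((e T).1 h))) (c.trans (card_image_of_injOn j).ge)
  refine ⟨j, q, Finset.ext fun U => ?_⟩
  rw [← q, mem_erase, mem_image, mem_image]
  refine ⟨?_, ?_⟩
  · rintro ⟨T, h, rfl⟩
    exact ⟨mt (i T ((e T).1 (mem_of_mem_erase h))) (ne_of_mem_erase h), T, mem_of_mem_erase h, rfl⟩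
  · rintro ⟨n, T, h, rfl⟩
    exact ⟨T, mem_erase.2 ⟨fun z => n (z ▸ map_zero γ), h⟩, rfl⟩

theorem Isg.dv (I : Isg x φ K) (e : Kr α E) (i : ∀ T, α T = 0 → φ T = 0 → T = 0)
    (m : ∀ T, α T = 0 → α (φ T) = 0) : ∃ b ≠ 0, Nm (dv x E) φ K b := by
  choose! C h0 hC using I.nm
  have n : ∀ T ∈ E.erase 0, φ T ≠ 0 := fun T h =>
    mt (i T ((e T).1 (mem_of_mem_erase h))) (ne_of_mem_erase h)
  obtain ⟨j, -, m⟩ := perm e e φ i m le_rfl
  refine ⟨∏ T ∈ E.erase 0, C T, prod_ne_zero_iff.2 fun T h => h0 _ (n T h), fun Q hQ => ?_⟩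
  unfold Tf.dv
  rw [prod_comm]
  conv_rhs => arg 2; rw [← m, prod_image (j.mono (erase_subset _ _))]
  rw [← prod_mul_distrib]
  exact prod_congr rfl fun T h => hC _ (n T h) Q hQ

variable (hx : ∀ P Q, P ≠ 0 → Q ≠ 0 → (x P = x Q ↔ P = Q ∨ P = -Q)) (e : Kr α E)
include hx e

theorem dv_ne {Q : G} (h : α Q ≠ 0) : dv x E Q ≠ 0 := prod_ne_zero_iff.2 fun T hT z => by
  have t := (e T).1 (mem_of_mem_erase hT)
  rcases (hx Q T (fun e => h (by rw [e, map_zero])) (ne_of_mem_erase hT)).1 (sub_eq_zero.1 z)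
    with rfl | rfl
  exacts [h t, h (by rw [map_neg, t, neg_zero])]

/-- **the normalisation** -/
theorem main {E₂ E₃ : Finset G} (I₂ : Isg x (mu G 2) E₂) (I₃ : Isg x (mu G 3) E₃)
    (c₂ : E₂.card = 4) (c₃ : E₃.card = 9) (co : ∀ T, α T = 0 → 6 • T = 0 → T = 0) : ∃ k ≠ 0,
    ∀ φ K, Isg x φ K → (∀ T, α T = 0 → φ T = 0 → T = 0) → (∀ T, α T = 0 → α (φ T) = 0) →
      Nm (dv x E) φ K (k ^ (K.card - 1)) := by
  have m : ∀ n T, α T = 0 → α (mu G n T) = 0 := fun n T t => (map_nsmul α n T).trans (by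
    rw [t, nsmul_zero])
  have i₂ : ∀ T, α T = 0 → mu G 2 T = 0 → T = 0 := fun T t z => co T t (by
    rw [show 6 = 2 * 3 from rfl, mul_nsmul, show 2 • T = 0 from z, nsmul_zero])
  obtain ⟨b₂, n₂, h₂⟩ := I₂.dv e i₂ (m 2)
  obtain ⟨b₃, n₃, h₃⟩ := I₃.dv e (fun T t z => co T t (by
    rw [show 6 = 3 * 2 from rfl, mul_nsmul, show 3 • T = 0 from z, nsmul_zero])) (m 3)
  have r : ∃ R, R ≠ 0 ∧ dv x E R ≠ 0 := by
    obtain ⟨R, h, r⟩ := exists_mem_ne (s := E₂) (by omega) 0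
    exact ⟨R, r, dv_ne hx e fun z => r (i₂ R z ((I₂.kr R).1 h))⟩
  have a := h₂.rel h₃ I₂.kr I₃.kr I₂.sj I₃.sj (mu_comp _ _) r
  rw [c₂, c₃] at a
  have a' : b₃ ^ 3 = b₂ ^ 8 := mul_right_cancel₀ (mul_ne_zero n₂ n₃) (by linear_combination a)
  obtain ⟨k, hk⟩ : ∃ k, k = b₂ ^ 3 / b₃ := ⟨_, rfl⟩
  have k₂ : k ^ 3 = b₂ := by rw [hk, div_pow, a']; field_simp
  have k₃ : k ^ 8 = b₃ := by
    rw [hk, div_pow, show (b₂ ^ 3) ^ 8 = (b₂ ^ 8) ^ 3 by ring, ← a']; field_simp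
  refine ⟨k, hk ▸ div_ne_zero (pow_ne_zero _ n₂) n₃, fun φ K I i i' => ?_⟩
  obtain ⟨b, n, h⟩ := I.dv e i i'
  obtain ⟨d, hd⟩ : ∃ d, K.card = d + 1 :=
    Nat.exists_eq_succ_of_ne_zero (card_ne_zero.2 ⟨0, (I.kr 0).2 (map_zero φ)⟩)
  have a₂ := h.rel h₂ I.kr I₂.kr I.sj I₂.sj (mu_comp _ _) r
  have a₃ := h.rel h₃ I.kr I₃.kr I.sj I₃.sj (mu_comp _ _) r
  rw [hd, c₂] at a₂
  rw [hd, c₃] at a₃
  have e₂ : b₂ ^ d = b ^ 3 := mul_right_cancel₀ (mul_ne_zero n₂ n) (by linear_combination a₂)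
  have e₃ : b₃ ^ d = b ^ 8 := mul_right_cancel₀ (mul_ne_zero n₃ n) (by linear_combination a₃)
  rw [← k₂, ← pow_mul, mul_comm, pow_mul] at e₂
  rw [← k₃, ← pow_mul, mul_comm, pow_mul] at e₃
  rw [hd, Nat.add_sub_cancel, ← eq38 n e₂.symm e₃.symm]
  exact h

omit hx e in
theorem Nm.div (h : Nm f φ K (k ^ (K.card - 1))) (a : Kr φ K) (k0 : k ≠ 0) (Q : G) (q : φ Q ≠ 0) :
    ∏ T ∈ K, k / f (Q + T) = k / f (φ Q) := by
  rw [prod_div_distrib, h Q q, prod_const, ← div_div, div_eq_iff (pow_ne_zero _ k0) |>.2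
    ((pow_sub_one_mul (card_ne_zero.2 ⟨0, (a 0).2 (map_zero φ)⟩) k).symm.trans (mul_comm _ _))]

end Vale.Agent.P014X.Tf
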