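import Vale.Agent.P014X.Tf.Ab
import Vale.Agent.P014T.Ht.Iso
import Vale.Agent.P004K.Gm.Iso

/-!
# P014X, block TH: complex multiplications are isogenies (helper19)
-/

set_option autoImplicit false
set_option linter.all false

open Finset
open scoped Classical

noncomputable section

namespace Vale.Agent.P014X.Tf

open P027H P004K P004K.Gm P014T.Ig.Hm P014T.Hi WeierstrassCurve.Affine
open P027M.M (io)
open P004M.TE (Pt ga ga_some Qb GQ)

variable {A B : ℤ} {Λ : Submodule ℤ ℂ} {x : Pt A B → Qb} {a : Qb} {φ : Pt A B →+ Pt A B}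

/-- `x` is the abscissa -/
def Xc (x : Pt A B → Qb) : Prop := x 0 = 0 ∧ ∀ a b h, x (.some a b h) = a

theorem Xc.eq (X : Xc x) (P Q : Pt A B) (p : P ≠ 0) (q : Q ≠ 0) : x P = x Q ↔ P = Q ∨ P = -Q := by
  rcases P with _ | ⟨a, b, h⟩
  · exact absurd rfl p
  rcases Q with _ | ⟨a', b', h'⟩
  · exact absurd rfl q
  rw [X.2, X.2]
  exact Point.X_eq_iff

theorem Xc.ga (X : Xc x) (g : GQ) (P : Pt A B) : x (ga g P) = g (x P) := by
  rcases P with _ | ⟨a, b, h⟩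
  · change x (P004M.TE.ga g 0) = g (x 0)
    rw [map_zero, X.1, map_zero]
  · rw [ga_some, X.2, X.2]

theorem Xc.un (X : Xc x) {z : ℂ} {y : Pt A B} (u : Un Λ z y) (a : z ∉ Λ) : io (x y) = wp Λ z := by
  obtain ⟨_, _, _, rfl, e, -⟩ := u.2 a
  rwa [X.2]

theorem un_ne {z : ℂ} {y : Pt A B} (u : Un Λ z y) : y = 0 ↔ z ∈ Λ :=
  ⟨fun e => un_mem (e ▸ u), u.1⟩

/-- `φ` is the multiplication by `a` -/
def Ml (Λ : Submodule ℤ ℂ) (a : Qb) (φ : Pt A B →+ Pt A B) : Prop :=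
  ∀ z y, Un Λ z y → Un Λ (io a * z) (φ y)

variable (h : IsLat Λ) (h2 : g2 Λ = -4 * A) (h3 : g3 Λ = -4 * B)
include h h2 h3

theorem ml_mu (n : ℕ) : Ml Λ n (mu (Pt A B) n) := fun z y u => by
  rw [map_natCast]
  exact un_smul h h2 h3 u n

/-- **a multiplication is an isogeny** -/
theorem Ml.isg (X : Xc x) (M : Ml Λ a φ) (a0 : a ≠ 0) :
    ∃ K, Isg x φ K ∧ (K.card : ℝ) = Complex.normSq (io a) := by
  obtain ⟨u1, u2, u3⟩ := un A B Λ h h2 h3
  have c0 : io a ≠ 0 := (map_ne_zero _).2 a0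
  have le : ∀ z ∈ Λ, io a * z ∈ Λ := fun z m =>
    (un_ne (M z 0 ⟨fun _ => rfl, fun b => absurd m b⟩)).1 (map_zero φ)
  have H := hom_inv c0 Λ
  have l := H.symm.isLat h
  have le' : Λ ≤ scl (io a)⁻¹ Λ := fun z m => (H.2 z).2 (le z m)
  obtain ⟨κ, _, r, R, r0⟩ := exists_reps0 h l le'
  obtain ⟨m, m0, hm⟩ := exists_exp h l le'
  choose T hT _ using fun i => ex_tors h h2 h3 m0 (z := -r i) (by
    rw [mul_neg]; exact neg_mem (hm _ (R.mem i)))
  have i : Function.Injective T := fun i k e =>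
    R.inj _ _ (mem_of_eq (neg_mem ((u2 _ _ _ _ (hT i) (hT k)).2.1 e)) (by ring))
  have rm : ∀ i, io a * -r i ∈ Λ := fun i => (H.2 _).1 (neg_mem (R.mem i))
  refine ⟨univ.image T, ⟨fun y => ⟨fun k => ?_, fun k => ?_⟩, fun y => ?_, fun P p => ?_⟩, ?_⟩
  · obtain ⟨i, -, rfl⟩ := mem_image.1 k
    exact (M _ _ (hT i)).1 (rm i)
  · obtain ⟨z, u⟩ := u1 y
    obtain ⟨i, e⟩ := R.ex (-z) (neg_mem ((H.2 _).2 ((un_ne (M _ _ u)).1 k)))
    exact mem_image.2 ⟨i, mem_univ _, (u2 _ _ _ _ (hT i) u).2.2 (mem_of_eq e (by ring))⟩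
  · obtain ⟨z, u⟩ := u1 y
    obtain ⟨w, hw⟩ := ex_un (A := A) (B := B) h h2 h3 m0 (z := z / io a) fun σ ψ e t => by
      have b := u3 z y σ 1 ψ u e t
      rw [ga1] at b
      have d := ((tq_tr t).hom (tq_tr t) c0 le).2 (z / io a)
      rw [mul_div_cancel₀ _ c0, e a, one_mul, div_one, AlgEquiv.one_apply] at d
      exact hm _ ((H.2 _).2 (mem_of_eq (sub_mem ((u2 _ _ _ _ b u).2.1 rfl) d) (by field_simp; ring)))
    exact ⟨w, (u2 _ _ _ _ (M _ _ hw) u).2.2 (mem_of_eq (zero_mem _) (by field_simp; ring))⟩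
  · obtain ⟨p', up⟩ := u1 P
    have n : ∀ {z y}, Un Λ z y → φ y ≠ 0 → z ∉ scl (io a)⁻¹ Λ := fun u k e =>
      k ((M _ _ u).1 ((H.2 _).1 e))
    have rn : ∀ k, -r (some k) ∉ Λ := fun k e =>
      Option.some_ne_none k (R.inj _ _ (by rw [r0, sub_zero]; exact neg_mem_iff.1 e))
    have xp := X.un up fun e => n up p (le' e)
    refine ⟨(∏ k, (x (T (some k)) - x P)) * a ^ 2, mul_ne_zero (prod_ne_zero_iff.2 fun k _ e => ?_)
      (pow_ne_zero _ a0), fun Q q => P004K.io_inj ?_⟩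
    · have t := (M _ _ (hT (some k))).1 (rm _)
      rcases (X.eq _ _ (mt (un_ne (hT _)).1 (rn k)) (mt (fun e => by rw [e, map_zero]) p)).1
        (sub_eq_zero.1 e) with e | e
      · exact p (e ▸ t)
      · exact p (by rwa [e, map_neg, neg_eq_zero] at t)
    obtain ⟨z, u⟩ := u1 Q
    have e := reps_prod R r0 h l (n up p) (n u q)
    have s : ∀ i, io (x (Q + T i) - x P) = wp Λ (z - r i) - wp Λ p' := fun i => by
      rw [map_sub, xp, X.un (u2 _ _ _ _ u (hT i)).1 fun e => n u q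
        (mem_of_eq (add_mem (le' e) (R.mem i)) (by ring)), sub_eq_add_neg z]
    rw [prod_image i.injOn, map_prod, Fintype.prod_option, map_mul, map_mul, map_prod, map_sub io (x (φ Q)),
      X.un (M _ _ u) (mt (H.2 _).2 (n u q)), X.un (M _ _ up) (mt (H.2 _).2 (n up p)), H.wp, H.wp,
      s, r0, sub_zero, prod_congr rfl fun k _ => s (some k), e, map_pow,
      prod_congr rfl fun k _ => show io (x (T (some k)) - x P) = wp Λ (r (some k)) - wp Λ p' by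
        rw [map_sub, xp, X.un (hT _) (rn k), h.wp_neg]]
    field_simp
  · rw [card_image_of_injective _ i, card_univ, card_reps R, ← dg, dg_eq h h c0 le,
      div_self (ar_pos h).ne', one_mul]

theorem isg_mu (X : Xc x) {n : ℕ} (n0 : n ≠ 0) : ∃ K, Isg x (mu (Pt A B) n) K ∧ K.card = n ^ 2 :=
  ((ml_mu h h2 h3 n).isg h h2 h3 X (Nat.cast_ne_zero.2 n0)).imp fun K k => ⟨k.1, by
    have := k.2
    rw [map_natCast, Complex.normSq_natCast, ← sq] at this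
    exact_mod_cast this⟩

/-- **the constant of the function of Kato** -/
theorem ex_k (X : Xc x) {α : Pt A B →+ Pt A B} {E : Finset (Pt A B)} (e : Kr α E)
    (co : ∀ T, α T = 0 → 6 • T = 0 → T = 0) : ∃ k ≠ 0, ∀ a φ K, a ≠ 0 → Ml Λ a φ → Kr φ K →
      (∀ T, α T = 0 → φ T = 0 → T = 0) → (∀ T, α T = 0 → α (φ T) = 0) →
      Nm (dv x E) φ K (k ^ (K.card - 1)) := by
  obtain ⟨E₂, I₂, e₂⟩ := isg_mu h h2 h3 X two_ne_zero
  obtain ⟨E₃, I₃, e₃⟩ := isg_mu h h2 h3 X three_ne_zero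
  obtain ⟨k, k0, n⟩ := main X.eq e I₂ I₃ e₂ e₃ co
  refine ⟨k, k0, fun a φ K a0 M kr i i' => ?_⟩
  obtain ⟨K', I', -⟩ := M.isg h h2 h3 X a0
  obtain rfl : K = K' := Finset.ext fun T => (kr T).trans (I'.kr T).symm
  exact n φ K I' i i'

end Vale.Agent.P014X.Tf
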